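import Vale.Agent.P207.N4.Geo.Asm
import Vale.Agent.P207.N4.H77.PicOf

/-!
# P207, line N4: the statement `AffP`
-/

noncomputable section

namespace Vale.Agent.P207.N4.H77

open Vale.Agent.P207.N4

/-- **(T1)** -/
theorem affP [Dim] : AffP := fun _ _ _ R => nonempty_aff R

end Vale.Agent.P207.N4.H77
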